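import Vale.Agent.P011.One.TwoSplit

/-!
P011, local input for general odd `n`: three small lemmas (reverse of the minimal polynomial of a
unitary element, places of an embedding into an ultrametric field).
-/

open NumberField IsDedekindDomain Module Polynomial

namespace Vale.Agent.P011.H856.Spl

open Vale.Agent.P011.Arith Vale.Agent.P011.Even Vale.Agent.P011.Two Vale.Agent.P011.One

section rev

variable {K D : Type} [Field K] [StarRing K] [DivisionRing D] [StarRing D] [Algebra K D]

theorem star_aeval (hst : ∀ (c : K) (x : D), star (c • x) = star c • star x) (x : D) (p : K[X]) :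
    star (aeval x p) = aeval (star x) (p.map (starRingEnd K)) := by
  induction p using Polynomial.induction_on' with
  | add p q hp hq => rw [map_add, star_add, hp, hq, Polynomial.map_add, map_add]
  | monomial n a =>
    rw [Polynomial.map_monomial, aeval_monomial, aeval_monomial, ← Algebra.smul_def,
      ← Algebra.smul_def, hst, star_pow, starRingEnd_apply]

variable [FiniteDimensional K D]

theorem degree_star_le (hst : ∀ (c : K) (x : D), star (c • x) = star c • star x) (u : D) :
    (minpoly K (star u)).degree ≤ (minpoly K u).degree := by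
  have hu : IsIntegral K u := Algebra.IsIntegral.isIntegral u
  have h1 : aeval (star u) ((minpoly K u).map (starRingEnd K)) = 0 := by
    rw [← star_aeval hst, minpoly.aeval, star_zero]
  have h2 := minpoly.min K (star u) ((minpoly.monic hu).map (starRingEnd K)) h1
  rwa [degree_map] at h2

/-- (R1) -/
theorem rev_coeff (hst : ∀ (c : K) (x : D), star (c • x) = star c • star x) {u : D}
    (hu : u * star u = 1) {i : ℕ} (hi : i ≤ (minpoly K u).natDegree) :
    star ((minpoly K u).coeff i) * (minpoly K u).coeff 0 =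
      (minpoly K u).coeff ((minpoly K u).natDegree - i) := by
  set p := minpoly K u with hp
  set n := p.natDegree with hn
  have hint : IsIntegral K u := Algebra.IsIntegral.isIntegral u
  have hmon : p.Monic := minpoly.monic hint
  have hu0 : u ≠ 0 := by
    rintro rfl
    rw [zero_mul] at hu
    exact zero_ne_one hu
  have hsu : star u = u⁻¹ := eq_inv_of_mul_eq_one_right hu
  have hdeg : (minpoly K (star u)).degree = p.degree := by
    refine le_antisymm (degree_star_le hst u) ?_
    have := degree_star_le (K := K) hst (star u)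
    rwa [star_star] at this
  let r : K[X] := ∑ j ∈ Finset.range (n + 1), monomial (n - j) (p.coeff j)
  have hr : ∀ m, r.coeff m = if m ≤ n then p.coeff (n - m) else 0 := by
    intro m
    simp only [r, finsetSum_coeff, coeff_monomial]
    split_ifs with hm
    · rw [Finset.sum_eq_single_of_mem (n - m) (Finset.mem_range.2 (by omega))]
      · rw [if_pos (by omega)]
      · intro b hb hbm
        have := Finset.mem_range.1 hb
        rw [if_neg (by omega)]
    · refine Finset.sum_eq_zero fun b hb => ?_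
      rw [if_neg (by omega)]
  have hr0 : aeval (star u) r = 0 := by
    have h1 : aeval (star u) r * u ^ n = aeval u p := by
      rw [aeval_eq_sum_range (p := p), ← hn]
      simp only [r, map_sum, aeval_monomial, Finset.sum_mul]
      refine Finset.sum_congr rfl fun j hj => ?_
      have hj' : j ≤ n := by have := Finset.mem_range.1 hj; omega
      rw [Algebra.smul_def, mul_assoc, hsu]
      congr 1
      have h2 : u ^ n = u ^ (n - j) * u ^ j := by rw [← pow_add]; congr 1; omega
      rw [h2, ← mul_assoc, inv_pow, inv_mul_cancel₀ (pow_ne_zero _ hu0), one_mul]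
    rw [hp, minpoly.aeval] at h1
    exact (mul_eq_zero.1 h1).resolve_right (pow_ne_zero _ hu0)
  have hp0 : aeval (star u) (C (p.coeff 0) * p.map (starRingEnd K)) = 0 := by
    rw [map_mul, ← star_aeval hst, hp, minpoly.aeval, star_zero, mul_zero]
  have hsub : r - C (p.coeff 0) * p.map (starRingEnd K) = 0 := by
    by_contra hne
    have h1 := minpoly.degree_le_of_ne_zero K (star u) hne (by rw [map_sub, hr0, hp0, sub_zero])
    rw [hdeg, degree_eq_natDegree hmon.ne_zero, ← hn] at h1
    have h2 : (r - C (p.coeff 0) * p.map (starRingEnd K)).degree < (n : ℕ) := by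
      rw [degree_lt_iff_coeff_zero]
      intro m hm
      rw [coeff_sub, hr, coeff_C_mul, coeff_map]
      rcases hm.eq_or_lt with rfl | hm
      · rw [if_pos le_rfl, Nat.sub_self]
        have h3 : p.coeff p.natDegree = 1 := hmon
        rw [h3, map_one, mul_one, sub_self]
      · rw [if_neg (not_le.2 hm), coeff_eq_zero_of_natDegree_lt hm, map_zero, mul_zero, sub_zero]
    exact absurd h1 (not_le.2 h2)
  have h := congrArg (fun q => coeff q i) hsub
  simp only [coeff_sub, coeff_zero, hr, coeff_C_mul, coeff_map] at h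
  rw [if_pos hi, sub_eq_zero, starRingEnd_apply] at h
  rw [h, mul_comm]

end rev

section places

variable {k K : Type} [Field k] [NumberField k] [Field K] [NumberField K] [Algebra k K]
  {v : HeightOneSpectrum (𝓞 k)} {w : HeightOneSpectrum (𝓞 K)}

omit [NumberField k] [Algebra k K] in
/-- The place of an embedding into an ultrametric field. -/
theorem exists_place {R : Type} [NormedField R] [IsUltrametricDist R] (φ : K →+* R) {x0 : 𝓞 K}
    (hx0 : x0 ≠ 0) (hx1 : ‖φ (algebraMap (𝓞 K) K x0)‖ < 1) :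
    ∃ w : HeightOneSpectrum (𝓞 K), ∀ y : K, w.valuation K y ≤ 1 → ‖φ y‖ ≤ 1 := by
  let ρ : 𝓞 K →+* R := φ.comp (algebraMap (𝓞 K) K)
  have hint : ∀ x : 𝓞 K, ‖ρ x‖ ≤ 1 := by
    intro x
    have h1 : IsIntegral ℤ (x : K) := RingOfIntegers.isIntegral_coe x
    refine Vale.Agent.P011.W.norm_root_le (f := (minpoly ℤ (x : K)).map
      (Int.castRingHom R)) ((minpoly.monic h1).map _) le_rfl (fun i => ?_) ?_
    · rw [Polynomial.coeff_map]
      exact IsUltrametricDist.norm_intCast_le_one _ _
    · have h2 : (minpoly ℤ (x : K)).eval₂ (algebraMap ℤ K) (x : K) = 0 := minpoly.aeval ℤ (x : K)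
      have h3 := congrArg φ h2
      rw [Polynomial.hom_eval₂, map_zero] at h3
      rw [Polynomial.eval_map, ← h3]
      congr 1
      exact RingHom.ext_int _ _
  let P : Ideal (𝓞 K) :=
    { carrier := {x | ‖ρ x‖ < 1}
      add_mem' := fun {x y} hx hy => by
        change ‖ρ (x + y)‖ < 1
        rw [map_add]
        exact (IsUltrametricDist.norm_add_le_max _ _).trans_lt (max_lt hx hy)
      zero_mem' := by
        change ‖ρ 0‖ < 1
        rw [map_zero, norm_zero]
        exact one_pos
      smul_mem' := fun c x hx => by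
        change ‖ρ (c * x)‖ < 1
        rw [map_mul, norm_mul]
        exact (mul_le_of_le_one_left (norm_nonneg _) (hint c)).trans_lt hx }
  have hP : ∀ x : 𝓞 K, x ∈ P ↔ ‖ρ x‖ < 1 := fun _ => Iff.rfl
  have hprime : P.IsPrime := by
    refine ⟨?_, fun {x y} hxy => ?_⟩
    · rw [Ideal.ne_top_iff_one, hP, map_one, norm_one]
      exact lt_irrefl _
    · rw [hP, map_mul, norm_mul] at hxy
      rw [hP, hP]
      by_contra hcon
      rw [not_or, not_lt, not_lt] at hcon
      exact absurd hxy (not_lt.mpr (one_le_mul_of_one_le_of_one_le hcon.1 hcon.2))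
  have hbot : P ≠ ⊥ := by
    intro h0
    have h1 : x0 ∈ P := hx1
    rw [h0, Ideal.mem_bot] at h1
    exact hx0 h1
  let w : HeightOneSpectrum (𝓞 K) := ⟨P, hprime, hbot⟩
  have hd1 : ∀ x : w.asIdeal.primeCompl, ‖ρ x‖ = 1 := by
    intro x
    have h1 : ¬ (x : 𝓞 K) ∈ P := x.2
    rw [hP, not_lt] at h1
    exact le_antisymm (hint _) h1
  refine ⟨w, fun y hy1 => ?_⟩
  obtain ⟨n, c, hc⟩ := w.exists_primeCompl_mul_eq_of_integer y hy1
  have h1 := congrArg (fun z => ‖φ z‖) hc
  simp only [map_mul, norm_mul] at h1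
  rw [show ‖φ (algebraMap (𝓞 K) K (c : 𝓞 K))‖ = 1 from hd1 c, mul_one] at h1
  rw [h1]
  exact hint n

/-- (R3) -/
theorem val_lt_iff {R : Type} [NormedField R] (φ : K →+* R)
    (h : ∀ y : K, w.valuation K y ≤ 1 → ‖φ y‖ ≤ 1) {x y : K} (hxy : ‖φ x‖ < ‖φ y‖) :
    w.valuation K x < w.valuation K y := by
  by_contra hcon
  rw [not_lt] at hcon
  have hy0 : y ≠ 0 := by
    rintro rfl
    rw [map_zero, norm_zero] at hxy
    exact absurd hxy (not_lt.2 (norm_nonneg _))
  have hv : w.valuation K y ≠ 0 := (Valuation.ne_zero_iff _).2 hy0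
  have hx0 : x ≠ 0 := by
    rintro rfl
    rw [map_zero] at hcon
    exact hv (le_antisymm hcon zero_le)
  have h1 : w.valuation K (y / x) ≤ 1 := by
    rw [map_div₀]
    exact div_le_one_of_le₀ hcon zero_le
  have h2 := h _ h1
  rw [map_div₀, norm_div] at h2
  have h3 : 0 < ‖φ x‖ := norm_pos_iff.mpr ((_root_.map_ne_zero φ).mpr hx0)
  rw [div_le_one h3] at h2
  exact absurd hxy (not_lt.2 h2)

variable [StarRing K]

/-- (R2) -/
theorem place_or (hfix : ∀ x : K, star x = x → ∃ c : k, algebraMap k K c = x) (hw : Ab w v)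
    {R : Type} [NormedField R] [IsUltrametricDist R] (φ : K →+* R)
    (hφ : ∀ c : k, ‖φ (algebraMap k K c)‖ = ‖algebraMap k (v.adicCompletion k) c‖) :
    (∀ y : K, w.valuation K y ≤ 1 → ‖φ y‖ ≤ 1) ∨
      ∀ y : K, w.valuation K y ≤ 1 → ‖φ (star y)‖ ≤ 1 := by
  obtain ⟨c0, hc0, hc0'⟩ := Submodule.exists_mem_ne_zero_of_ne_bot v.ne_bot
  have hint : ∀ x : 𝓞 K, IsIntegral ℤ (star (x : K)) := fun x =>
    (RingOfIntegers.isIntegral_coe x).map ((starRingEnd K : K →+* K).toIntAlgHom)
  let x0 : 𝓞 K := algebraMap (𝓞 k) (𝓞 K) c0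
  have hx0 : x0 ≠ 0 := fun h => hc0' (FaithfulSMul.algebraMap_injective (𝓞 k) (𝓞 K)
    (by rw [map_zero]; exact h))
  have hx1 : ‖φ (algebraMap (𝓞 K) K x0)‖ < 1 := by
    have h1 : φ (algebraMap (𝓞 K) K x0) = φ (algebraMap k K (algebraMap (𝓞 k) k c0)) := rfl
    rw [h1, hφ, norm_lt_one_iff, valued_alg]
    exact (v.valuation_lt_one_iff_mem (K := k) c0).2 hc0
  obtain ⟨w₁, h₁⟩ := exists_place φ hx0 hx1
  let y0 : 𝓞 K := ⟨star (x0 : K), hint x0⟩
  have hy0 : y0 ≠ 0 := by
    intro h
    have h1 : star (x0 : K) = 0 := congrArg (fun z : 𝓞 K => (z : K)) h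
    rw [star_eq_zero] at h1
    exact hx0 (RingOfIntegers.ext h1)
  have hy1 : ‖(φ.comp (starRingEnd K : K →+* K)) (algebraMap (𝓞 K) K y0)‖ < 1 := by
    have h1 : (φ.comp (starRingEnd K : K →+* K)) (algebraMap (𝓞 K) K y0) =
        φ (star (star (x0 : K))) := rfl
    rw [h1, star_star]
    exact hx1
  obtain ⟨w₂, h₂⟩ := exists_place (φ.comp (starRingEnd K : K →+* K)) hy0 hy1
  by_cases hc₁ : w = w₁
  · exact Or.inl (hc₁ ▸ h₁)
  by_cases hc₂ : w = w₂
  · exact Or.inr (hc₂ ▸ h₂)
  exfalso
  have hmax := w.isMaximal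
  have hn₁ : ¬ w.asIdeal ≤ w₁.asIdeal := fun h =>
    hc₁ (HeightOneSpectrum.ext (hmax.eq_of_le w₁.isPrime.ne_top h))
  have hn₂ : ¬ w.asIdeal ≤ w₂.asIdeal := fun h =>
    hc₂ (HeightOneSpectrum.ext (hmax.eq_of_le w₂.isPrime.ne_top h))
  have hn : ¬ ((w.asIdeal : Set (𝓞 K)) ⊆ w₁.asIdeal ∪ w₂.asIdeal) := fun h => by
    rcases Ideal.subset_union.mp h with h | h
    · exact hn₁ h
    · exact hn₂ h
  rw [Set.not_subset] at hn
  obtain ⟨x, hx, hx'⟩ := hn
  rw [Set.mem_union, not_or] at hx'
  have hge : ∀ {w' : HeightOneSpectrum (𝓞 K)} {φ' : K →+* R},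
      (∀ y : K, w'.valuation K y ≤ 1 → ‖φ' y‖ ≤ 1) → x ∉ w'.asIdeal → 1 ≤ ‖φ' (x : K)‖ := by
    intro w' φ' h hx
    by_contra hcon
    rw [not_le] at hcon
    refine hx ((w'.valuation_lt_one_iff_mem (K := K) x).mp ?_)
    have h1 := val_lt_iff (w := w') φ' h (x := (x : K)) (y := 1) (by rwa [map_one, norm_one])
    rwa [map_one] at h1
  have h3 := hge h₁ hx'.1
  have h4 : 1 ≤ ‖φ (star (x : K))‖ := hge h₂ hx'.2
  obtain ⟨c, hc⟩ := hfix ((x : K) * star (x : K)) (by rw [star_mul, star_star])
  have h5 : w.valuation K (algebraMap k K c) < 1 := by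
    rw [hc, map_mul]
    have h6 : w.valuation K (x : K) < 1 := (w.valuation_lt_one_iff_mem x).mpr hx
    have h7 : w.valuation K (star (x : K)) ≤ 1 :=
      w.valuation_le_one (⟨star (x : K), hint x⟩ : 𝓞 K)
    exact (mul_le_mul_right h7 _).trans_lt (by rwa [mul_one])
  have h7 : ‖algebraMap k (v.adicCompletion k) c‖ < 1 := by
    rw [norm_lt_one_iff, valued_alg]
    exact (val_lt_one_iff hw c).mp h5
  rw [← hφ, hc, map_mul, norm_mul] at h7
  exact absurd h7 (not_lt.mpr (one_le_mul_of_one_le_of_one_le h3 h4))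

end places

end Vale.Agent.P011.H856.Spl
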